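import Vale.Agent.P342.Defs

/-!
P342, module E: short lists of visible labels are avoided by some edge tuple.
-/

namespace Vale.Agent.P342

open Vale.Agent.Lib.PCP Finset

variable {l r : ℕ}

namespace H577

theorem countP_le_sum {X ι : Type} (S : Finset ι) (p : X → Bool) (q : ι → X → Bool)
    (h : ∀ x, p x = true → ∃ i ∈ S, q i x = true) (G : List X) :
    G.countP p ≤ ∑ i ∈ S, G.countP (q i) := by
  induction G with
  | nil => simp
  | cons x G ih =>
    have h1 : (if p x = true then 1 else 0) ≤ ∑ i ∈ S, (if q i x = true then 1 else 0) := by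
      by_cases hp : p x = true
      · obtain ⟨i, hi, hq⟩ := h x hp
        rw [if_pos hp]
        refine le_trans ?_ (Finset.single_le_sum (f := fun i => if q i x = true then 1 else 0)
          (fun _ _ => Nat.zero_le _) hi)
        simp [hq]
      · rw [if_neg hp]; exact Nat.zero_le _
    simp only [List.countP_cons, Finset.sum_add_distrib]
    omega

/-- the fraction of constraints satisfied by short lists -/
theorem countP_lists {η : ℝ} {G : PG ℕ ℕ (Fin r) (Fin r)} (hs : G.Sound η) {K : ℕ} (hr : 0 < r)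
    (A B : ℕ → Finset (Fin r)) (hA : ∀ x, (A x).card ≤ K) (hB : ∀ y, (B y).card ≤ K)
    (p : Ed r → Bool)
    (hp : ∀ c, p c = true → ∃ s ∈ A c.1, ∃ u ∈ B c.2.1, c.2.2 s = u) :
    (G.countP p : ℝ) ≤ K ^ 2 * (η * G.length) := by
  classical
  let d : Fin r := ⟨0, hr⟩
  let a : ℕ → ℕ → Fin r := fun i x => (A x).toList.getD i d
  let b : ℕ → ℕ → Fin r := fun j y => (B y).toList.getD j d
  have key : G.countP p ≤ ∑ ij ∈ range K ×ˢ range K, G.sat (a ij.1) (b ij.2) := by
    refine countP_le_sum (range K ×ˢ range K) p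
      (fun ij c => decide (c.2.2 (a ij.1 c.1) = b ij.2 c.2.1)) ?_ G
    intro c hc
    obtain ⟨s, hsA, u, huB, hsu⟩ := hp c hc
    obtain ⟨i, hi, hi'⟩ := List.mem_iff_getElem.1 (Finset.mem_toList.2 hsA)
    obtain ⟨j, hj, hj'⟩ := List.mem_iff_getElem.1 (Finset.mem_toList.2 huB)
    have hi2 : i < K := lt_of_lt_of_le (by simpa using hi) (hA c.1)
    have hj2 : j < K := lt_of_lt_of_le (by simpa using hj) (hB c.2.1)
    refine ⟨(i, j), by simp [hi2, hj2], ?_⟩
    have e1 : a i c.1 = s := by
      simp only [a]; rw [List.getD_eq_getElem _ _ hi]; exact hi'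
    have e2 : b j c.2.1 = u := by
      simp only [b]; rw [List.getD_eq_getElem _ _ hj]; exact hj'
    simp [e1, e2, hsu]
  calc (G.countP p : ℝ) ≤ ((∑ ij ∈ range K ×ˢ range K, G.sat (a ij.1) (b ij.2) : ℕ) : ℝ) := by
        exact_mod_cast key
    _ = ∑ ij ∈ range K ×ˢ range K, (G.sat (a ij.1) (b ij.2) : ℝ) := by push_cast; rfl
    _ ≤ ∑ _ij ∈ range K ×ˢ range K, η * G.length := Finset.sum_le_sum fun ij _ => hs _ _
    _ = K ^ 2 * (η * G.length) := by
        rw [Finset.sum_const, Finset.card_product, card_range, nsmul_eq_mul]; push_cast; ring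

theorem card_filter_get {X : Type} (G : List X) (p : X → Bool) :
    (univ.filter fun i : Fin G.length => p (G.get i) = true).card = G.countP p := by
  classical
  rw [Finset.card_filter]
  have h1 : (∑ i : Fin G.length, if p (G.get i) = true then 1 else 0)
      = (G.map fun x => if p x = true then 1 else 0).sum := by
    rw [← List.sum_ofFn]
    congr 1
    apply List.ext_getElem <;> simp
  rw [h1]
  induction G with
  | nil => simp
  | cons x G ih => 
    simp only [List.map_cons, List.sum_cons, List.countP_cons]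
    rw [ih]
    · omega
    · rw [← List.sum_ofFn]
      congr 1
      apply List.ext_getElem <;> simp

/-- resampling one coordinate -/
theorem sum_update {N : ℕ} (b : Fin l) (φ : (Fin l → Fin N) → ℕ) :
    ∑ f : Fin l → Fin N, ∑ i : Fin N, φ (Function.update f b i)
      = N * ∑ f : Fin l → Fin N, φ f := by
  classical
  have h1 : ∑ f : Fin l → Fin N, ∑ i : Fin N, φ (Function.update f b i)
      = ∑ x : (Fin l → Fin N) × Fin N, φ (Function.update x.1 b x.2) := by
    rw [Fintype.sum_prod_type]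
  have h2 : ∑ x : (Fin l → Fin N) × Fin N, φ (Function.update x.1 b x.2)
      = ∑ x : (Fin l → Fin N) × Fin N, φ x.1 := by
    refine Finset.sum_nbij' (fun x => (Function.update x.1 b x.2, x.1 b))
      (fun x => (Function.update x.1 b x.2, x.1 b)) ?_ ?_ ?_ ?_ ?_
    · intro x _; simp
    · intro x _; simp
    · intro x _; simp
    · intro x _; simp
    · intro x _; simp
  rw [h1, h2, Fintype.sum_prod_type]
  simp [Finset.mul_sum]

end H577

/-- MODULE E. -/
theorem lists {η : ℝ} {G : PG ℕ ℕ (Fin r) (Fin r)} (hG : G ≠ []) (hs : G.Sound η) {K : ℕ}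
    (hK : l * η * K ^ 2 < 1)
    (A B : Fin l → (Fin l → Ed r) → Finset (Fin r))
    (hA : ∀ b e, (A b e).card ≤ K) (hB : ∀ b e, (B b e).card ≤ K)
    (hA' : ∀ b e e', (∀ b', b' ≠ b → e b' = e' b') → (e b).1 = (e' b).1 → A b e = A b e')
    (hB' : ∀ b e e', (∀ b', b' ≠ b → e b' = e' b') → (e b).2.1 = (e' b).2.1 → B b e = B b e') :
    ∃ e : Fin l → Ed r, (∀ b, e b ∈ G) ∧ ∀ b, ∀ s ∈ A b e, ∀ u ∈ B b e, (e b).2.2 s ≠ u := by
  classical
  rcases Nat.eq_zero_or_pos r with hr | hr
  · subst hr
    obtain ⟨c, hc⟩ := List.exists_mem_of_ne_nil G hG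
    exact ⟨fun _ => c, fun _ => hc, fun b s => s.elim0⟩
  set N := G.length with hN
  have hN0 : 0 < N := List.length_pos_iff.2 hG
  by_contra hcon
  push Not at hcon
  -- the tuple of constraints of a tuple of indices
  let E : (Fin l → Fin N) → Fin l → Ed r := fun f b => G.get (f b)
  let bad : Fin l → (Fin l → Fin N) → Prop := fun b f =>
    ∃ s ∈ A b (E f), ∃ u ∈ B b (E f), (E f b).2.2 s = u
  have hbad : ∀ f, ∃ b, bad b f := by
    intro f
    obtain ⟨b, s, hsA, u, huB, h⟩ := hcon (E f) (fun b => List.get_mem _ _)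
    exact ⟨b, s, hsA, u, huB, h⟩
  -- one block
  have hone : ∀ b f, ((∑ i : Fin N, if bad b (Function.update f b i) then 1 else 0 : ℕ) : ℝ)
      ≤ K ^ 2 * (η * N) := by
    intro b f
    let up : Ed r → Fin l → Ed r := fun c => Function.update (E f) b c
    have hup : ∀ i, E (Function.update f b i) = up (G.get i) := by
      intro i
      funext b'
      by_cases hb : b' = b
      · subst hb; simp [E, up]
      · simp [E, up, hb]
    let A1 : ℕ → Finset (Fin r) := fun x => A b (up (x, 0, fun i => i))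
    let B1 : ℕ → Finset (Fin r) := fun y => B b (up (0, y, fun i => i))
    have hA1 : ∀ c : Ed r, A b (up c) = A1 c.1 := by
      intro c
      refine hA' b _ _ ?_ ?_
      · intro b' hb'; simp [up, hb']
      · simp [up]
    have hB1 : ∀ c : Ed r, B b (up c) = B1 c.2.1 := by
      intro c
      refine hB' b _ _ ?_ ?_
      · intro b' hb'; simp [up, hb']
      · simp [up]
    have h1 := H577.countP_lists (G := G) hs hr A1 B1 (fun x => hA _ _) (fun x => hB _ _)
      (fun c => decide (∃ s ∈ A1 c.1, ∃ u ∈ B1 c.2.1, c.2.2 s = u))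
      (fun c hc => by simpa using hc)
    refine le_trans (le_of_eq ?_) h1
    rw [← H577.card_filter_get, Finset.card_filter]
    congr 1
    refine Finset.sum_congr rfl fun i _ => ?_
    have h2 : bad b (Function.update f b i) ↔
        (∃ s ∈ A1 (G.get i).1, ∃ u ∈ B1 (G.get i).2.1, (G.get i).2.2 s = u) := by
      simp only [bad]
      rw [hup, hA1, hB1]
      simp [up]
    simp only [decide_eq_true_eq]
    exact if_congr h2 rfl rfl
  -- all blocks
  have hblock : ∀ b, (N : ℝ) * ((∑ f : Fin l → Fin N, if bad b f then 1 else 0 : ℕ) : ℝ)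
      ≤ (N : ℝ) ^ l * (K ^ 2 * (η * N)) := by
    intro b
    have h1 := H577.sum_update (N := N) b (fun f => if bad b f then 1 else 0)
    calc (N : ℝ) * ((∑ f : Fin l → Fin N, if bad b f then 1 else 0 : ℕ) : ℝ)
        = ((N * ∑ f : Fin l → Fin N, (if bad b f then 1 else 0) : ℕ) : ℝ) := by push_cast; rfl
      _ = ((∑ f : Fin l → Fin N, ∑ i : Fin N,
            (if bad b (Function.update f b i) then 1 else 0) : ℕ) : ℝ) := by rw [h1]
      _ = ∑ f : Fin l → Fin N, ((∑ i : Fin N,
            (if bad b (Function.update f b i) then 1 else 0) : ℕ) : ℝ) := by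
            rw [Nat.cast_sum]
      _ ≤ ∑ _f : Fin l → Fin N, (K ^ 2 * (η * N) : ℝ) := Finset.sum_le_sum fun f _ => hone b f
      _ = (N : ℝ) ^ l * (K ^ 2 * (η * N)) := by
            rw [Finset.sum_const, nsmul_eq_mul]; simp
  have htot : ((N : ℝ) ^ l) ≤ ∑ b : Fin l,
      ((∑ f : Fin l → Fin N, if bad b f then 1 else 0 : ℕ) : ℝ) := by
    have h1 : (∑ _f : Fin l → Fin N, 1 : ℕ) ≤
        ∑ b : Fin l, ∑ f : Fin l → Fin N, if bad b f then 1 else 0 := by
      rw [Finset.sum_comm]
      refine Finset.sum_le_sum fun f _ => ?_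
      obtain ⟨b, hb⟩ := hbad f
      refine le_trans ?_ (Finset.single_le_sum (f := fun b => if bad b f then 1 else 0)
        (fun _ _ => Nat.zero_le _) (Finset.mem_univ b))
      simp [hb]
    have h2 : (∑ _f : Fin l → Fin N, 1 : ℕ) = N ^ l := by simp
    rw [h2] at h1
    exact_mod_cast h1
  have hNr : (0 : ℝ) < N := by exact_mod_cast hN0
  have hpow : (0 : ℝ) < (N : ℝ) ^ l := pow_pos hNr l
  have hsum : (N : ℝ) * (N : ℝ) ^ l ≤ l * ((N : ℝ) ^ l * (K ^ 2 * (η * N))) := by
    calc (N : ℝ) * (N : ℝ) ^ l ≤ N * ∑ b : Fin l,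
          ((∑ f : Fin l → Fin N, if bad b f then 1 else 0 : ℕ) : ℝ) :=
          mul_le_mul_of_nonneg_left htot hNr.le
      _ = ∑ b : Fin l, (N : ℝ) *
          ((∑ f : Fin l → Fin N, if bad b f then 1 else 0 : ℕ) : ℝ) := by
          rw [Finset.mul_sum]
      _ ≤ ∑ _b : Fin l, (N : ℝ) ^ l * (K ^ 2 * (η * N)) :=
          Finset.sum_le_sum fun b _ => hblock b
      _ = l * ((N : ℝ) ^ l * (K ^ 2 * (η * N))) := by
          rw [Finset.sum_const, nsmul_eq_mul]; simp
  have hfin : (1 : ℝ) ≤ l * η * K ^ 2 := by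
    have h3 : (N : ℝ) * (N : ℝ) ^ l * 1 ≤ (N : ℝ) * (N : ℝ) ^ l * (l * η * K ^ 2) := by
      nlinarith [hsum]
    exact le_of_mul_le_mul_left h3 (mul_pos hNr hpow)
  linarith

end Vale.Agent.P342
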